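import Mathlib

namespace Vale.Agent.P302

/-- `OPT a`: the least number `k` of bins such that the items `0, …, n-1` (item `i` has size `a i`)
can be assigned to `k` bins, each bin receiving total size at most `1`. -/
noncomputable def OPT {n : ℕ} (a : Fin n → ℚ) : ℕ :=
  sInf {k : ℕ | ∃ f : Fin n → Fin k, ∀ b : Fin k, ∑ i with f i = b, a i ≤ 1}

/-- A configuration: a multiset of sizes occurring in the instance (with arbitrary
multiplicities) of total size at most `1`. -/
def IsConfig {n : ℕ} (a : Fin n → ℚ) (c : Multiset ℚ) : Prop :=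
  (∀ σ ∈ c, ∃ i, a i = σ) ∧ c.sum ≤ 1

/-- The Gilmore-Gomory configuration LP value. -/
noncomputable def LP {n : ℕ} (a : Fin n → ℚ) : ℝ :=
  sInf {v : ℝ | ∃ (S : Finset (Multiset ℚ)) (z : Multiset ℚ → ℝ),
    (∀ c ∈ S, IsConfig a c ∧ 0 ≤ z c) ∧
    (∀ σ : ℚ, ((Finset.univ.filter fun i => a i = σ).card : ℝ) ≤ ∑ c ∈ S, (c.count σ : ℝ) * z c) ∧
    v = ∑ c ∈ S, z c}

end Vale.Agent.P302
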