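import Vale.Agent.P302.Gadget

open Finset

namespace Vale.Agent.P302

def yy (P U : ℕ) (g : ℕ → ℕ) (i : ℕ) : ℕ := ∑ s ∈ range i, (P + 1) ^ (U - g s)

def tau (P U : ℕ) : Option ℕ → ℕ
  | none => 0
  | some k => 2 * (P + 1) ^ (U - k)

theorem yy_strictMono (P U : ℕ) (g : ℕ → ℕ) : StrictMono (yy P U g) :=
  strictMono_nat_of_lt_succ fun i => by
    simp only [yy, sum_range_succ]
    have : 0 < (P + 1) ^ (U - g i) := by positivity
    omega

theorem yy_sub (P U : ℕ) (g : ℕ → ℕ) {i j : ℕ} (h : i ≤ j) :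
    yy P U g j = yy P U g i + ∑ s ∈ Ico i j, (P + 1) ^ (U - g s) :=
  (sum_range_add_sum_Ico _ h).symm

theorem tau_le (P U : ℕ) (c : Option ℕ) : tau P U c ≤ 2 * (P + 1) ^ U := by
  cases c with
  | none => simp [tau]
  | some k => exact Nat.mul_le_mul_left _ (Nat.pow_le_pow_right (by omega) (by omega))

theorem valid_fits {P U : ℕ} {g : ℕ → ℕ} {w : Win} (h : Valid 0 P g w) :
    yy P U g w.1 + tau P U w.2.2 ≤ yy P U g w.2.1 := by
  obtain ⟨i, j, c⟩ := w
  rw [yy_sub P U g h.1]
  cases c with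
  | none => simp [tau]
  | some k =>
    obtain ⟨a, b, -, -, e3, e4, e5, e6, e7⟩ := h.2 k rfl
    have hsub : ({a, b} : Finset ℕ) ⊆ Ico i j := by
      intro x hx
      simp only [mem_insert, mem_singleton, mem_Ico] at hx ⊢
      dsimp only at e3 e5
      omega
    have := sum_le_sum_of_subset (f := fun s => (P + 1) ^ (U - g s)) hsub
    rw [sum_pair e4.ne, e6, e7] at this
    simp only [tau]
    omega

theorem fits_two {P U i j k : ℕ} {g : ℕ → ℕ} (hk : k < U) (hj : j ≤ P)
    (h : yy P U g i + tau P U (some k) ≤ yy P U g j) (hlow : ∀ s, i ≤ s → s < j → k ≤ g s) :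
    ∃ a b, i ≤ a ∧ a < b ∧ b < j ∧ g a = k ∧ g b = k := by
  have hij : i ≤ j := (yy_strictMono P U g).le_iff_le.1 (by omega)
  rw [yy_sub P U g hij] at h
  by_contra hc
  have h1 : ((Ico i j).filter fun s => g s = k).card ≤ 1 := by
    rw [card_le_one]
    intro a ha b hb
    simp only [mem_filter, mem_Ico] at ha hb
    by_contra hab
    rcases lt_or_gt_of_ne hab with h2 | h2
    · exact hc ⟨a, b, ha.1.1, h2, hb.1.2, ha.2, hb.2⟩
    · exact hc ⟨b, a, hb.1.1, h2, ha.1.2, hb.2, ha.2⟩
  rw [← sum_filter_add_sum_filter_not (Ico i j) (fun s => g s = k)] at h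
  obtain ⟨e, he⟩ : ∃ e, U - k = e + 1 := ⟨U - k - 1, by omega⟩
  have h2 : ∑ s ∈ (Ico i j).filter fun s => g s = k, (P + 1) ^ (U - g s) ≤ (P + 1) ^ (e + 1) := by
    rw [sum_congr rfl (g := fun _ => (P + 1) ^ (e + 1)) (fun s hs => by
      rw [(mem_filter.1 hs).2, he])]
    simp only [sum_const, smul_eq_mul]
    exact (Nat.mul_le_mul_right _ h1).trans (by simp)
  have h3 : ∑ s ∈ (Ico i j).filter fun s => ¬ g s = k, (P + 1) ^ (U - g s) ≤ P * (P + 1) ^ e := by
    refine (sum_le_card_nsmul _ _ ((P + 1) ^ e) fun s hs => ?_).trans ?_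
    · simp only [mem_filter, mem_Ico] at hs
      have := hlow s hs.1.1 hs.1.2
      exact Nat.pow_le_pow_right (by omega) (by omega)
    · rw [smul_eq_mul]
      refine Nat.mul_le_mul_right _ ((card_filter_le _ _).trans ?_)
      simp; omega
  simp only [tau, he] at h
  have h4 : 0 < (P + 1) ^ e := by positivity
  rw [pow_succ] at h h2
  nlinarith

variable {κ : Type} [Fintype κ]

def QQ (P U : ℕ) (g : ℕ → ℕ) : ℕ := yy P U g P + 2 * (P + 1) ^ U + 1

def szA (P U : ℕ) (g : ℕ → ℕ) (i : ℕ) : ℕ := 10 * QQ P U g + yy P U g i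
def szB (P U : ℕ) (g : ℕ → ℕ) (j : ℕ) : ℕ := 11 * QQ P U g + (yy P U g P - yy P U g j)
def szC (P U : ℕ) (g : ℕ → ℕ) (c : Option ℕ) : ℕ := 13 * QQ P U g + tau P U c
def Cap (P U : ℕ) (g : ℕ → ℕ) : ℕ := 34 * QQ P U g + yy P U g P

def sz (P U : ℕ) (g : ℕ → ℕ) (c : κ → Option ℕ) : Fin P ⊕ Fin P ⊕ κ → ℕ
  | .inl i => szA P U g i
  | .inr (.inl j) => szB P U g (j + 1)
  | .inr (.inr l) => szC P U g (c l)

theorem card_le_of_inj {β γ : Type*} {S : Finset β} {T : Finset γ} (I : β → γ) (r : γ → β)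
    (h : ∀ b ∈ S, r (I b) = b) (hT : ∀ b ∈ S, I b ∈ T) : S.card ≤ T.card :=
  card_le_card_of_injOn I hT fun a ha b hb e => by rw [← h a ha, e, h b hb]

theorem base_lemma (a b c : ℕ) (h : 10 * a + 11 * b + 13 * c ≤ 34) :
    10 * a + 11 * b + 13 * c ≤ 33 + if a = 1 ∧ b = 1 ∧ c = 1 then 1 else 0 := by
  have ha : a ≤ 3 := by omega
  have hb : b ≤ 3 := by omega
  have hc : c ≤ 3 := by omega
  interval_cases a <;> interval_cases b <;> interval_cases c <;> simp at h ⊢

theorem no_pack {K P U : ℕ} {g n : ℕ → ℕ} (G : Good (33 * K + 2) (33 * K) (33 * K + 2) 0 0 P U g n)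
    (c : κ → Option ℕ) (hκ : Fintype.card κ = P)
    (hc : ∀ k, (univ.filter fun l => c l = some k).card = n k) {k : ℕ}
    (f : Fin P ⊕ Fin P ⊕ κ → Fin k) (hf : ∀ β, ∑ i with f i = β, sz P U g c i ≤ Cap P U g) :
    P + K < k := by
  classical
  by_contra hk
  push Not at hk
  obtain ⟨F, hF⟩ : ∃ F, F = 33 * K := ⟨_, rfl⟩
  rw [← hF] at G
  have hP := G.pos
  have : Nonempty (Fin P) := ⟨⟨0, hP⟩⟩
  have : Nonempty κ := Fintype.card_pos_iff.1 (by omega)
  set A : Fin k → Finset (Fin P) := fun β => univ.filter fun i => f (.inl i) = β with hA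
  set B : Fin k → Finset (Fin P) := fun β => univ.filter fun i => f (.inr (.inl i)) = β with hB
  set C : Fin k → Finset κ := fun β => univ.filter fun i => f (.inr (.inr i)) = β with hC
  have hsplit : ∀ β, ∑ i ∈ A β, szA P U g i + ∑ j ∈ B β, szB P U g (j + 1) +
      ∑ l ∈ C β, szC P U g (c l) ≤ Cap P U g := by
    intro β
    have := hf β
    rw [sum_filter, Fintype.sum_sum_type, Fintype.sum_sum_type] at this
    simp only [hA, hB, hC, sum_filter, add_assoc]
    exact this
  have hbase : ∀ β, 10 * (A β).card + 11 * (B β).card + 13 * (C β).card ≤ 34 := by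
    intro β
    have h1 := card_nsmul_le_sum (A β) (fun i => szA P U g i) (10 * QQ P U g)
      (fun i _ => by simp [szA])
    have h2 := card_nsmul_le_sum (B β) (fun j => szB P U g (j + 1)) (11 * QQ P U g)
      (fun i _ => by simp [szB])
    have h3 := card_nsmul_le_sum (C β) (fun l => szC P U g (c l)) (13 * QQ P U g)
      (fun i _ => by simp [szC])
    have h4 := hsplit β
    have h5 : yy P U g P < QQ P U g := by unfold QQ; omega
    simp only [smul_eq_mul, Cap] at h1 h2 h3 h4
    by_contra hcon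
    push Not at hcon
    nlinarith
  set Gd : Finset (Fin k) := univ.filter fun β =>
    (A β).card = 1 ∧ (B β).card = 1 ∧ (C β).card = 1 with hGd
  have hGcard : P ≤ Gd.card + F := by
    have sA : ∑ β, (A β).card = P := by
      rw [← card_eq_sum_card_fiberwise (f := fun i => f (.inl i)) (fun _ _ => mem_univ _)]; simp
    have sB : ∑ β, (B β).card = P := by
      rw [← card_eq_sum_card_fiberwise (f := fun i => f (.inr (.inl i))) (fun _ _ => mem_univ _)]
      simp
    have sC : ∑ β, (C β).card = P := by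
      rw [← card_eq_sum_card_fiberwise (f := fun i => f (.inr (.inr i))) (fun _ _ => mem_univ _)]
      simp [hκ]
    have h1 : ∑ β, (10 * (A β).card + 11 * (B β).card + 13 * (C β).card) ≤
        ∑ β, (33 + if β ∈ Gd then 1 else 0) := by
      refine sum_le_sum fun β _ => ?_
      have := hbase β
      simp only [hGd, mem_filter, mem_univ, true_and]
      exact base_lemma _ _ _ this
    simp only [sum_add_distrib, ← mul_sum, sA, sB, sC, sum_const, card_univ, Fintype.card_fin,
      smul_eq_mul, sum_ite_mem, univ_inter] at h1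
    omega
  have hex : ∀ β ∈ Gd, ∃ (i j : Fin P) (l : κ), f (.inl i) = β ∧ f (.inr (.inl j)) = β ∧
      f (.inr (.inr l)) = β ∧ yy P U g i + tau P U (c l) ≤ yy P U g (j + 1) := by
    intro β hβ
    simp only [hGd, mem_filter, mem_univ, true_and, card_eq_one] at hβ
    obtain ⟨⟨i, hi⟩, ⟨j, hj⟩, ⟨l, hl⟩⟩ := hβ
    have h4 := hsplit β
    rw [hi, hj, hl, sum_singleton, sum_singleton, sum_singleton] at h4
    have m1 : i ∈ A β := by rw [hi]; simp
    have m2 : j ∈ B β := by rw [hj]; simp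
    have m3 : l ∈ C β := by rw [hl]; simp
    refine ⟨i, j, l, (mem_filter.1 m1).2, (mem_filter.1 m2).2, (mem_filter.1 m3).2, ?_⟩
    have := (yy_strictMono P U g).monotone (show (j : ℕ) + 1 ≤ P from j.2)
    simp only [szA, szB, szC, Cap] at h4
    omega
  choose! I J L hI hJ hL hfit using hex
  have hIJ : ∀ β ∈ Gd, (I β : ℕ) ≤ J β + 1 := fun β hβ =>
    (yy_strictMono P U g).le_iff_le.1 (by have := hfit β hβ; omega)
  have hcross : ∀ s, s < P → (Gd.filter fun β => (I β : ℕ) ≤ s ∧ s < J β + 1).card ≤ F + 1 := by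
    intro s hs
    have h1 : (Gd.filter fun β => (I β : ℕ) ≤ s).card ≤ s + 1 := by
      refine (card_le_of_inj (T := range (s + 1)) (fun β => (I β : ℕ))
        (fun x => if h : x < P then f (.inl ⟨x, h⟩) else f (.inl ⟨0, hP⟩)) ?_ ?_).trans (by simp)
      · intro β hβ; simp [hI β (mem_filter.1 hβ).1]
      · intro β hβ; have := (mem_filter.1 hβ).2; simp; omega
    have h2 : (Gd.filter fun β => s < J β + 1).card ≤ P - s := by
      refine (card_le_of_inj (T := Ico s P) (fun β => (J β : ℕ))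
        (fun x => if h : x < P then f (.inr (.inl ⟨x, h⟩)) else f (.inl ⟨0, hP⟩)) ?_ ?_).trans
        (by simp)
      · intro β hβ; simp [hJ β (mem_filter.1 hβ).1]
      · intro β hβ; have := (mem_filter.1 hβ).2; simp; omega
    have h3 := card_union_add_card_inter (Gd.filter fun β => (I β : ℕ) ≤ s)
      (Gd.filter fun β => s < J β + 1)
    have h4 : (Gd.filter fun β => (I β : ℕ) ≤ s) ∪ (Gd.filter fun β => s < J β + 1) = Gd := by
      ext β
      simp only [mem_union, mem_filter]
      constructor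
      · tauto
      · intro h; have := hIJ β h
        by_cases h5 : (I β : ℕ) ≤ s
        · exact Or.inl ⟨h, h5⟩
        · exact Or.inr ⟨h, by omega⟩
    rw [h4, ← filter_and] at h3
    omega
  have hwin : ∀ r, 0 < n r → ∃ β ∈ Gd, c (L β) = some r ∧ ∃ a b, (I β : ℕ) ≤ a ∧ a < b ∧
      b < J β + 1 ∧ g a = r ∧ g b = r := by
    intro r hr
    obtain ⟨-, e2, e3, e4⟩ := G.big r hr
    have h1 : (Gd.filter fun β => ¬ c (L β) = some r).card ≤
        (univ.filter fun l => ¬ c l = some r).card :=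
      card_le_of_inj L (fun l => f (.inr (.inr l))) (fun β hβ => hL β (mem_filter.1 hβ).1)
        (fun β hβ => by simpa using (mem_filter.1 hβ).2)
    have h2 := card_filter_add_card_filter_not (s := (univ : Finset κ)) (fun l => c l = some r)
    have h3 := card_filter_add_card_filter_not (s := Gd) (fun β => c (L β) = some r)
    rw [hc, card_univ, hκ] at h2
    have h4 : (((Ico 0 (0 + P)).filter fun s => g s < r).biUnion fun s =>
        Gd.filter fun β => (I β : ℕ) ≤ s ∧ s < J β + 1).card ≤ (F + 1) * r := by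
      refine card_biUnion_le.trans ((sum_le_card_nsmul _ _ (F + 1) fun s hs => ?_).trans ?_)
      · simp only [mem_filter, mem_Ico] at hs
        exact hcross s (by omega)
      · rw [smul_eq_mul, mul_comm]
        exact Nat.mul_le_mul_left _ (by omega)
    obtain ⟨β, hβ, hβ2⟩ := exists_mem_notMem_of_card_lt_card
      (lt_of_le_of_lt h4 (show _ < (Gd.filter fun β => c (L β) = some r).card by omega))
    obtain ⟨b1, b2⟩ := mem_filter.1 hβ
    refine ⟨β, b1, b2, fits_two (P := P) e2 (J β).2 (by rw [← b2]; exact hfit β b1) ?_⟩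
    intro s h5 h6
    by_contra h7
    apply hβ2
    simp only [mem_biUnion, mem_filter, mem_Ico]
    have := (J β).2
    exact ⟨s, ⟨⟨by omega, by omega⟩, by omega⟩, b1, h5, h6⟩
  have : Nonempty (Fin k) := ⟨f (.inl ⟨0, hP⟩)⟩
  choose! W hW1 hW2 s₁ s₂ w1 w2 w3 w4 w5 using hwin
  obtain ⟨s, -, hs, hcov⟩ := G.path s₁ s₂ fun r hr =>
    ⟨Nat.zero_le _, w2 r hr, by have := w3 r hr; have := (J (W r)).2; omega, w4 r hr, w5 r hr⟩
  have h1 : cov U n s₁ s₂ s ≤ (Gd.filter fun β => (I β : ℕ) ≤ s ∧ s < J β + 1).card := by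
    unfold cov
    refine card_le_of_inj W (fun β => (c (L β)).getD 0) ?_ ?_
    · intro r hr
      simp only [mem_filter] at hr
      simp [hW2 r hr.2.1]
    · intro r hr
      simp only [mem_filter] at hr ⊢
      have := w1 r hr.2.1
      have := w3 r hr.2.1
      exact ⟨hW1 r hr.2.1, by omega, by omega⟩
  have := hcross s (by omega)
  omega

end Vale.Agent.P302
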