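import Vale.Agent.P302.Defs
import Vale.Agent.P302.Pack

open Finset

namespace Vale.Agent.P302

theorem exists_Cm {m P U : ℕ} (hm : 0 < m) {n : ℕ → ℕ} (hn : ∀ k, 0 < n k → k < U)
    (Mc : Multiset (Option ℕ)) (hcard : Mc.card = m * P) (hc : ∀ k, Mc.count (some k) = m * n k) :
    ∃ Cm : Multiset (Option ℕ), Cm.card = P ∧ Mc = m • Cm ∧ ∀ k, Cm.count (some k) = n k := by
  set T : Multiset (Option ℕ) := ∑ k ∈ range U, Multiset.replicate (n k) (some k) with hT
  have hTc : ∀ k, T.count (some k) = n k := by
    intro k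
    simp only [hT, Multiset.count_sum', Multiset.count_replicate, Option.some.injEq]
    rw [sum_ite_eq']
    split_ifs with h
    · rfl
    · by_contra h2
      exact h (mem_range.2 (hn k (by omega)))
  have hTn : T.count none = 0 := by
    simp [hT, Multiset.count_sum', Multiset.count_replicate]
  have hle : m • T ≤ Mc := by
    rw [Multiset.le_iff_count]
    intro x
    cases x with
    | none => simp [hTn]
    | some k => simp [hTc, hc]
  obtain ⟨R, hR⟩ := Multiset.le_iff_exists_add.1 hle
  have h1 : m * T.card + R.card = m * P := by rw [← hcard, hR]; simp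
  have h2 : T.card ≤ P := Nat.le_of_mul_le_mul_left (by omega) hm
  have h3 : R = Multiset.replicate (m * (P - T.card)) none := by
    rw [Multiset.eq_replicate]
    refine ⟨by rw [Nat.mul_sub]; omega, fun b hb => ?_⟩
    cases b with
    | none => rfl
    | some k =>
      have h4 := hc k
      rw [hR, Multiset.count_add, Multiset.count_nsmul, hTc] at h4
      have := Multiset.count_pos.2 hb
      omega
  refine ⟨T + Multiset.replicate (P - T.card) none, by simp; omega, ?_, fun k => ?_⟩
  · rw [hR, h3, nsmul_add, Multiset.nsmul_replicate]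
  · simp [hTc, Multiset.count_replicate]

theorem LP_le {n m P : ℕ} (hm : 0 < m) (a : Fin n → ℚ) (M : Multiset (Multiset ℚ))
    (hM : ∀ c ∈ M, IsConfig a c) (hcard : M.card = m * P) (hsum : M.sum = m • univ.val.map a) :
    LP a ≤ P := by
  classical
  have hm' : (0 : ℝ) < m := by exact_mod_cast hm
  apply csInf_le
  · refine ⟨0, ?_⟩
    rintro v ⟨S, z, h1, -, rfl⟩
    exact sum_nonneg fun c hc => (h1 c hc).2
  · refine ⟨M.toFinset, fun c => (M.count c : ℝ) / m, fun c hc =>
      ⟨hM c (Multiset.mem_toFinset.1 hc), by positivity⟩, fun σ => ?_, ?_⟩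
    · have h1 : (M.map fun c => c.count σ).sum = m * (univ.filter fun i => a i = σ).card := by
        have : (M.map fun c => c.count σ).sum = M.sum.count σ := by
          rw [← Multiset.coe_countAddMonoidHom, map_multiset_sum]
        rw [this, hsum, Multiset.count_nsmul, Multiset.count_map]
        simp only [eq_comm (a := σ)]
        rfl
      rw [Finset.sum_multiset_map_count] at h1
      have h2 : ∑ c ∈ M.toFinset, (c.count σ : ℝ) * ((M.count c : ℝ) / m) =
          ((∑ c ∈ M.toFinset, M.count c • c.count σ : ℕ) : ℝ) / m := by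
        push_cast
        rw [sum_div]
        refine sum_congr rfl fun c _ => ?_
        simp only [smul_eq_mul]; push_cast; ring
      rw [h2, h1]
      push_cast
      field_simp
      rfl
    · rw [← sum_div, ← Nat.cast_sum, Multiset.toFinset_sum_count_eq, hcard]
      push_cast
      field_simp

theorem gap_unbounded (K : ℕ) : ∃ (n : ℕ) (a : Fin n → ℚ), (∀ i, 0 < a i ∧ a i ≤ 1) ∧
    ⌈LP a⌉ + (K : ℤ) < (OPT a : ℤ) := by
  classical
  have hm : 0 < 33 * K + 2 := by omega
  obtain ⟨P, U, g, n, G⟩ := good_exists (F := 33 * K) hm (33 * K + 2) 0 0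
  obtain ⟨M, m1, m2, m3, m4⟩ := G.lp
  have hMcard : M.card = (33 * K + 2) * P := by
    have := congrArg Multiset.card m1
    simpa using this
  obtain ⟨Cm, c1, c2, c3⟩ := exists_Cm (P := P) hm (fun k hk => (G.big k hk).2.1)
    (M.map fun w => w.2.2) (by simpa using hMcard) m4
  obtain ⟨κ, _, c, hcmap⟩ : ∃ (κ : Type) (_ : Fintype κ) (c : κ → Option ℕ),
      (univ : Finset κ).val.map c = Cm :=
    ⟨Cm.ToType, inferInstance, fun x => x, Multiset.map_univ_coe Cm⟩
  have hκ : Fintype.card κ = P := by
    rw [← c1, ← hcmap]; simp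
  let ι := Fin P ⊕ Fin P ⊕ κ
  let e : Fin (Fintype.card ι) ≃ ι := (Fintype.equivFin ι).symm
  have hQ : 0 < QQ P U g := by unfold QQ; omega
  have hCap : (0 : ℚ) < Cap P U g := by
    have : 0 < Cap P U g := by unfold Cap; omega
    exact_mod_cast this
  let a : Fin (Fintype.card ι) → ℚ := fun i => (sz P U g c (e i) : ℚ) / Cap P U g
  have hsz : ∀ x : ι, 0 < sz P U g c x ∧ sz P U g c x ≤ Cap P U g := by
    rintro (i | j | l)
    · have := (yy_strictMono P U g).monotone i.2.le
      simp only [sz, szA, Cap]; omega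
    · simp only [sz, szB, Cap]; omega
    · have := tau_le P U (c l)
      have h2 : 2 * (P + 1) ^ U < QQ P U g := by unfold QQ; omega
      simp only [sz, szC, Cap]; omega
  have ha : ∀ i, 0 < a i ∧ a i ≤ 1 := fun i => by
    obtain ⟨h1, h2⟩ := hsz (e i)
    refine ⟨div_pos (by exact_mod_cast h1) hCap, ?_⟩
    rw [div_le_one hCap]; exact_mod_cast h2
  refine ⟨_, a, ha, ?_⟩
  have hOPT : P + K < OPT a := by
    have hne : {k : ℕ | ∃ f : Fin (Fintype.card ι) → Fin k,
        ∀ b : Fin k, ∑ i with f i = b, a i ≤ 1}.Nonempty := by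
      refine ⟨_, id, fun b => ?_⟩
      simp only [id, filter_eq', mem_univ, if_true, sum_singleton]
      exact (ha b).2
    have hmem := Nat.sInf_mem hne
    change OPT a ∈ _ at hmem
    generalize OPT a = k₀ at hmem
    obtain ⟨f, hf⟩ := hmem
    refine no_pack G c hκ (fun k => ?_) (fun x => f (e.symm x)) fun β => ?_
    · rw [← c3, ← hcmap, Multiset.count_map]
      simp only [eq_comm (a := some k)]
      rfl
    · have h1 := hf β
      simp only [a] at h1
      rw [← sum_div, div_le_one hCap] at h1
      have h2 : ∑ i with f (e.symm i) = β, sz P U g c i = ∑ i with f i = β, sz P U g c (e i) := by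
        rw [sum_filter, sum_filter, ← Equiv.sum_comp e]
        simp
      rw [h2]
      exact_mod_cast h1
  let fa : ℕ → ℚ := fun i => (szA P U g i : ℚ) / Cap P U g
  let fb : ℕ → ℚ := fun i => (szB P U g i : ℚ) / Cap P U g
  let fc : Option ℕ → ℚ := fun i => (szC P U g i : ℚ) / Cap P U g
  have hamap : univ.val.map a =
      (Ico 0 (0 + P)).val.map fa + (Ioc 0 (0 + P)).val.map fb + Cm.map fc := by
    have h1 : univ.val.map a = (univ : Finset ι).val.map fun x => (sz P U g c x : ℚ) / Cap P U g := by
      rw [← Multiset.map_univ_val_equiv e, Multiset.map_map]; rfl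
    have h2 : (univ : Finset (Fin P)).val.map (fun i : Fin P => i.val) = (Ico 0 (0 + P)).val := by
      have : (univ : Finset (Fin P)).map Fin.valEmbedding = Ico 0 (0 + P) := by
        ext x; simp [Fin.exists_iff]
      rw [← this]; rfl
    have h3 : (univ : Finset (Fin P)).val.map (fun i : Fin P => i.val + 1) = (Ioc 0 (0 + P)).val := by
      have h4 : (Ico 0 (0 + P)).map ⟨fun i => i + 1, add_left_injective 1⟩ = Ioc 0 (0 + P) := by
        ext x
        simp only [mem_map, mem_Ico, Function.Embedding.coeFn_mk, mem_Ioc]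
        constructor
        · rintro ⟨y, hy, rfl⟩; omega
        · intro h; exact ⟨x - 1, by omega, by omega⟩
      rw [← h4, map_val, ← h2, Multiset.map_map]; rfl
    rw [h1, ← h2, ← h3, ← hcmap, ← univ_disjSum_univ, ← univ_disjSum_univ]
    simp only [val_disjSum, Multiset.disjSum, Multiset.map_add, Multiset.map_map, add_assoc]
    rfl
  have hLP : LP a ≤ P := by
    refine LP_le hm a (M.map fun w => {fa w.1, fb w.2.1, fc w.2.2}) ?_ (by simpa using hMcard) ?_
    · intro cf hcf
      obtain ⟨w, hw, rfl⟩ := Multiset.mem_map.1 hcf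
      have w1 : w.1 ∈ (Ico 0 (0 + P)).val :=
        Multiset.mem_of_mem_nsmul (m1 ▸ Multiset.mem_map_of_mem _ hw)
      have w2 : w.2.1 ∈ (Ioc 0 (0 + P)).val :=
        Multiset.mem_of_mem_nsmul (m2 ▸ Multiset.mem_map_of_mem _ hw)
      have w3 : w.2.2 ∈ Cm := Multiset.mem_of_mem_nsmul (c2 ▸ Multiset.mem_map_of_mem _ hw)
      constructor
      · intro σ hσ
        have : σ ∈ univ.val.map a := by
          rw [hamap]
          simp only [Multiset.insert_eq_cons, Multiset.mem_cons, Multiset.mem_singleton] at hσ
          simp only [Multiset.mem_add]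
          rcases hσ with rfl | rfl | rfl
          · exact Or.inl (Or.inl (Multiset.mem_map_of_mem _ w1))
          · exact Or.inl (Or.inr (Multiset.mem_map_of_mem _ w2))
          · exact Or.inr (Multiset.mem_map_of_mem _ w3)
        obtain ⟨i, -, hi⟩ := Multiset.mem_map.1 this
        exact ⟨i, hi⟩
      · have h1 := valid_fits (U := U) (m3 w hw)
        have h2 := (yy_strictMono P U g).monotone
          (show w.2.1 ≤ P by have := (mem_Ioc.1 (mem_def.2 w2)).2; omega)
        have h3 : szA P U g w.1 + (szB P U g w.2.1 + szC P U g w.2.2) ≤ Cap P U g := by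
          simp only [szA, szB, szC, Cap]; omega
        simp only [Multiset.insert_eq_cons, Multiset.sum_cons, Multiset.sum_singleton, fa, fb, fc]
        rw [← add_div, ← add_div, div_le_one hCap]
        exact_mod_cast h3
    · rw [hamap, nsmul_add, nsmul_add, ← Multiset.map_nsmul, ← Multiset.map_nsmul,
        ← Multiset.map_nsmul, ← m1, ← m2, ← c2]
      simp only [Multiset.map_map, Function.comp_def]
      clear m1 m2 m3 m4 c2 hMcard
      induction M using Multiset.induction_on with
      | empty => simp
      | cons w M ih =>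
        simp only [Multiset.map_cons, Multiset.sum_cons, ih]
        simp only [Multiset.insert_eq_cons, ← Multiset.singleton_add]
        abel
  have : ⌈LP a⌉ ≤ (P : ℤ) := Int.ceil_le.2 (by exact_mod_cast hLP)
  omega

end Vale.Agent.P302
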