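import Vale.Agent.P302.Tiling

open Finset

namespace Vale.Agent.P302

open Classical in
/-- number of ranks whose chosen window covers `s` -/
noncomputable def cov (U : ℕ) (n s₁ s₂ : ℕ → ℕ) (s : ℕ) : ℕ :=
  ((range U).filter fun k => 0 < n k ∧ s₁ k ≤ s ∧ s ≤ s₂ k).card

def Ends (o N : ℕ) (g n s₁ s₂ : ℕ → ℕ) : Prop :=
  ∀ k, 0 < n k → o ≤ s₁ k ∧ s₁ k < s₂ k ∧ s₂ k < o + N ∧ g (s₁ k) = k ∧ g (s₂ k) = k

structure Good (m F d p o N U : ℕ) (g n : ℕ → ℕ) : Prop where
  pos : 0 < N
  le : p + N ≤ U
  rk : ∀ s, o ≤ s → s < o + N → p ≤ g s ∧ g s < U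
  big : ∀ k, 0 < n k → p ≤ k ∧ k < U ∧ (F + 1) * k + F + 1 ≤ n k ∧
    ((Ico o (o + N)).filter fun s => g s < k).card + p ≤ k
  path : ∀ s₁ s₂, Ends o N g n s₁ s₂ → ∃ s, o ≤ s ∧ s < o + N ∧ d ≤ cov U n s₁ s₂ s
  lp : LPok d o N g fun k => m * n k

structure Blk (m F d p q r o N U : ℕ) (g n : ℕ → ℕ) : Prop where
  le : q ≤ U
  rk : ∀ s, o ≤ s → s < o + N → g s = p ∨ (q ≤ g s ∧ g s < U)
  cnt : ((Ico o (o + N)).filter fun s => g s = p).card = r
  big : ∀ k, 0 < n k → q ≤ k ∧ k < U ∧ (F + 1) * k + F + 1 ≤ n k ∧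
    ((Ico o (o + N)).filter fun s => g s < k ∧ g s ≠ p).card + q ≤ k
  path : ∀ s₁ s₂, Ends o N g n s₁ s₂ → ∀ a b, o ≤ a → a < b → b < o + N → g a = p → g b = p →
    ∃ s, a ≤ s ∧ s ≤ b ∧ d ≤ cov U n s₁ s₂ s
  lp : LPok d o N g fun k => m * n k

theorem cov_mono {U U' : ℕ} {n n' s₁ s₂ : ℕ → ℕ} (hU : U ≤ U') (hn : ∀ k, 0 < n k → 0 < n' k)
    (s : ℕ) : cov U n s₁ s₂ s ≤ cov U' n' s₁ s₂ s := by
  apply card_le_card
  intro k hk
  simp only [mem_filter, mem_range] at hk ⊢
  exact ⟨by omega, hn k hk.2.1, hk.2.2⟩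

theorem blk_exists {m F d : ℕ} (ih : ∀ p o, ∃ N U g n, Good m F d p o N U g n) (p r : ℕ) :
    ∀ q o, p < q → ∃ N U g n, Blk m F d p q r o N U g n := by
  induction r with
  | zero =>
    intro q o _
    refine ⟨0, q, fun _ => 0, fun _ => 0, le_rfl, fun s h1 h2 => by omega, by simp, by simp,
      fun _ _ _ a b h1 h2 h3 => by omega, ?_⟩
    exact (LPok.triv d o 0 _).congr (fun _ _ _ => rfl) (by simp)
  | succ r ihr =>
    intro q o hpq
    obtain ⟨N₁, U₁, g₁, n₁, G⟩ := ih q (o + 1)
    have hqU : q < U₁ := by have := G.pos; have := G.le; omega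
    obtain ⟨N₂, U₂, g₂, n₂, B⟩ := ihr U₁ (o + 1 + N₁) (by omega)
    have hU := B.le
    set g : ℕ → ℕ := fun s => if s = o then p else if s < o + 1 + N₁ then g₁ s else g₂ s with hg
    have g0 : g o = p := by simp [hg]
    have g1 : ∀ s, o + 1 ≤ s → s < o + 1 + N₁ → g s = g₁ s := fun s h1 h2 => by
      simp only [hg]; rw [if_neg (by omega), if_pos h2]
    have g2 : ∀ s, o + 1 + N₁ ≤ s → g s = g₂ s := fun s h1 => by
      simp only [hg]; rw [if_neg (by omega), if_neg (by omega)]
    refine ⟨1 + N₁ + N₂, U₂, g, fun k => n₁ k + n₂ k, by omega, ?_, ?_, ?_, ?_, ?_⟩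
    · intro s h1 h2
      rcases eq_or_lt_of_le h1 with rfl | h3
      · exact Or.inl g0
      by_cases h4 : s < o + 1 + N₁
      · rw [g1 s h3 h4]; have := G.rk s h3 h4; omega
      · rw [g2 s (by omega)]; have := B.rk s (by omega) (by omega); omega
    · have : ((Ico o (o + (1 + N₁ + N₂))).filter fun s => g s = p) =
          insert o ((Ico (o + 1 + N₁) (o + 1 + N₁ + N₂)).filter fun s => g₂ s = p) := by
        ext s
        simp only [mem_filter, mem_Ico, mem_insert]
        constructor
        · rintro ⟨⟨h1, h2⟩, h3⟩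
          rcases eq_or_lt_of_le h1 with rfl | h4
          · exact Or.inl rfl
          by_cases h5 : s < o + 1 + N₁
          · rw [g1 s h4 h5] at h3; have := G.rk s h4 h5; omega
          · rw [g2 s (by omega)] at h3; exact Or.inr ⟨⟨by omega, by omega⟩, h3⟩
        · rintro (rfl | ⟨⟨h1, h2⟩, h3⟩)
          · exact ⟨⟨le_rfl, by omega⟩, g0⟩
          · exact ⟨⟨by omega, by omega⟩, by rw [g2 s h1, h3]⟩
      rw [this, card_insert_of_notMem (by simp only [mem_filter, mem_Ico]; omega), B.cnt]
    · intro k hk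
      by_cases h1 : 0 < n₁ k
      · obtain ⟨e1, e2, e3, e4⟩ := G.big k h1
        refine ⟨e1, by omega, by omega, le_trans (Nat.add_le_add_right (card_le_card ?_) _) e4⟩
        intro s hs
        simp only [mem_filter, mem_Ico] at hs ⊢
        obtain ⟨⟨h2, h3⟩, h4, h5⟩ := hs
        rcases eq_or_lt_of_le h2 with rfl | h6
        · exact absurd g0 h5
        by_cases h7 : s < o + 1 + N₁
        · rw [g1 s h6 h7] at h4; exact ⟨⟨h6, h7⟩, h4⟩
        · rw [g2 s (by omega)] at h4 h5; have := B.rk s (by omega) (by omega); omega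
      · obtain ⟨e1, e2, e3, e4⟩ := B.big k (by omega)
        refine ⟨by omega, e2, by omega, ?_⟩
        have hsub : ((Ico o (o + (1 + N₁ + N₂))).filter fun s => g s < k ∧ g s ≠ p) ⊆
            Ico (o + 1) (o + 1 + N₁) ∪
            ((Ico (o + 1 + N₁) (o + 1 + N₁ + N₂)).filter fun s => g₂ s < k ∧ g₂ s ≠ p) := by
          intro s hs
          simp only [mem_filter, mem_Ico, mem_union] at hs ⊢
          obtain ⟨⟨h2, h3⟩, h4, h5⟩ := hs
          rcases eq_or_lt_of_le h2 with rfl | h6
          · exact absurd g0 h5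
          by_cases h7 : s < o + 1 + N₁
          · exact Or.inl ⟨h6, h7⟩
          · rw [g2 s (by omega)] at h4 h5; exact Or.inr ⟨⟨by omega, by omega⟩, h4, h5⟩
        have := (card_le_card hsub).trans (card_union_le _ _)
        rw [Nat.card_Ico] at this
        have := G.le
        omega
    · intro s₁ s₂ hE a b h1 h2 h3 h4 h5
      have notp : ∀ s, o + 1 ≤ s → s < o + 1 + N₁ → g s ≠ p := fun s h1 h2 => by
        rw [g1 s h1 h2]; have := G.rk s h1 h2; omega
      rcases eq_or_lt_of_le h1 with rfl | h6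
      · have hb : o + 1 + N₁ ≤ b := by
          by_contra hc
          exact notp b (by omega) (by omega) h5
        have loc : ∀ k s, 0 < n₁ k → o ≤ s → s < o + (1 + N₁ + N₂) → g s = k →
            o + 1 ≤ s ∧ s < o + 1 + N₁ := by
          intro k s hk e1 e2 e3
          obtain ⟨f1, f2, -⟩ := G.big k hk
          rcases eq_or_lt_of_le e1 with rfl | h6
          · omega
          by_cases h7 : s < o + 1 + N₁
          · exact ⟨h6, h7⟩
          · rw [g2 s (by omega)] at e3; have := B.rk s (by omega) (by omega); omega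
        obtain ⟨s, e1, e2, e3⟩ := G.path s₁ s₂ (fun k hk => by
          obtain ⟨f1, f2, f3, f4, f5⟩ := hE k (by dsimp only; omega)
          have l1 := loc k _ hk f1 (by omega) f4
          have l2 := loc k _ hk (by omega) f3 f5
          exact ⟨l1.1, f2, l2.2, by rw [← g1 _ l1.1 l1.2, f4], by rw [← g1 _ l2.1 l2.2, f5]⟩)
        exact ⟨s, by omega, by omega, e3.trans (cov_mono hU (fun k hk => by omega) s)⟩
      · have ha : o + 1 + N₁ ≤ a := by
          by_contra hc
          exact notp a (by omega) (by omega) h4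
        have loc : ∀ k s, 0 < n₂ k → o ≤ s → g s = k → o + 1 + N₁ ≤ s := by
          intro k s hk e1 e3
          obtain ⟨f1, f2, -⟩ := B.big k hk
          rcases eq_or_lt_of_le e1 with rfl | h6
          · omega
          by_cases h7 : s < o + 1 + N₁
          · rw [g1 s h6 h7] at e3; have := G.rk s h6 h7; omega
          · omega
        obtain ⟨s, e1, e2, e3⟩ := B.path s₁ s₂ (fun k hk => by
          obtain ⟨f1, f2, f3, f4, f5⟩ := hE k (by dsimp only; omega)
          have l1 := loc k _ hk f1 f4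
          exact ⟨l1, f2, by omega, by rw [← g2 _ l1, f4], by rw [← g2 _ (by omega), f5]⟩)
          a b ha h2 (by omega) (by rw [← g2 _ ha, h4]) (by rw [← g2 _ (by omega), h5])
        exact ⟨s, e1, e2, e3.trans (cov_mono le_rfl (fun k hk => by omega) s)⟩
    · have l1 := G.lp.congr (g' := g) (fun s h1 h2 => (g1 s h1 h2).symm) (fun _ => rfl)
      have l2 := B.lp.congr (g' := g) (fun s h1 _ => (g2 s h1).symm) (fun _ => rfl)
      have l3 := ((LPok.triv d o 1 g).concat l1).concat (by rwa [← add_assoc])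
      exact l3.congr (fun _ _ _ => rfl) (fun k => by ring)

theorem good_exists {m F : ℕ} (hm : 0 < m) (d : ℕ) :
    ∀ p o, ∃ N U g n, Good m F d p o N U g n := by
  induction d with
  | zero =>
    intro p o
    refine ⟨1, p + 1, fun _ => p, fun _ => 0, one_pos, le_rfl, fun _ _ _ => by omega, by simp,
      fun _ _ _ => ⟨o, le_rfl, by omega, Nat.zero_le _⟩, ?_⟩
    exact (LPok.zero o 1 _).congr (fun _ _ _ => rfl) (by simp)
  | succ d ih =>
    intro p o
    obtain ⟨c, hc⟩ : ∃ c, c = (F + 1) * p + F + 1 := ⟨_, rfl⟩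
    have hc0 : 0 < c := by omega
    have hr : 0 < 2 * (m * c) := by positivity
    obtain ⟨N, U, g, n, B⟩ := blk_exists ih p (2 * (m * c)) (p + 2 * (m * c)) o (by omega)
    have hU := B.le
    have hN : 2 * (m * c) ≤ N := by
      rw [← B.cnt]
      exact (card_filter_le _ _).trans (by simp)
    have hnp : n p = 0 := by
      by_contra h
      have := (B.big p (by omega)).1
      omega
    refine ⟨N, U + p + N, g, fun k => n k + if k = p then c else 0, by omega, by omega, ?_, ?_, ?_,
      ?_⟩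
    · intro s h1 h2
      have := B.rk s h1 h2
      omega
    · intro k hk
      by_cases hkp : k = p
      · subst hkp
        refine ⟨le_rfl, by omega, by simp [hc], ?_⟩
        rw [card_eq_zero.2, zero_add]
        rw [filter_eq_empty_iff]
        intro s hs
        rw [mem_Ico] at hs
        have := B.rk s hs.1 hs.2
        omega
      · simp only [if_neg hkp, add_zero] at hk ⊢
        obtain ⟨e1, e2, e3, e4⟩ := B.big k hk
        refine ⟨by omega, by omega, e3, ?_⟩
        have hsub : ((Ico o (o + N)).filter fun s => g s < k) ⊆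
            ((Ico o (o + N)).filter fun s => g s = p) ∪
            ((Ico o (o + N)).filter fun s => g s < k ∧ g s ≠ p) := by
          intro s hs
          simp only [mem_filter, mem_union] at hs ⊢
          tauto
        have := (card_le_card hsub).trans (card_union_le _ _)
        rw [B.cnt] at this
        omega
    · intro s₁ s₂ hE
      obtain ⟨f1, f2, f3, f4, f5⟩ := hE p (by simp [hc0])
      obtain ⟨s, e1, e2, e3⟩ := B.path s₁ s₂ (fun k hk => hE k (by dsimp only; omega)) _ _
        f1 f2 f3 f4 f5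
      refine ⟨s, by omega, by omega, ?_⟩
      classical
      have hsub : insert p ((range U).filter fun k => 0 < n k ∧ s₁ k ≤ s ∧ s ≤ s₂ k) ⊆
          (range (U + p + N)).filter fun k =>
            0 < (n k + if k = p then c else 0) ∧ s₁ k ≤ s ∧ s ≤ s₂ k := by
        intro k hk
        simp only [mem_insert, mem_filter, mem_range] at hk ⊢
        rcases hk with rfl | hk
        · exact ⟨by omega, by simp [hc0], e1, e2⟩
        · exact ⟨by omega, by omega, hk.2.2⟩
      have := card_le_card hsub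
      rw [card_insert_of_notMem (by simp [hnp])] at this
      unfold cov at e3 ⊢
      convert le_trans (Nat.add_le_add_right e3 1) (by convert this)
    · refine (B.lp.stack (LPok.top p g (m * c) o N B.cnt.ge)).congr (fun _ _ _ => rfl) (fun k => ?_)
      split_ifs <;> ring

end Vale.Agent.P302
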