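import Mathlib

open Finset

namespace Vale.Agent.P302

abbrev Win := ℕ × ℕ × Option ℕ

def Valid (o N : ℕ) (g : ℕ → ℕ) (w : Win) : Prop :=
  w.1 ≤ w.2.1 ∧ ∀ k, w.2.2 = some k →
    ∃ a b, o ≤ a ∧ b < o + N ∧ w.1 ≤ a ∧ a < b ∧ b < w.2.1 ∧ g a = k ∧ g b = k

def LPok (d o N : ℕ) (g cnt : ℕ → ℕ) : Prop :=
  ∃ M : Multiset Win, M.map (fun w => w.1) = d • (Ico o (o + N)).val ∧
    M.map (fun w => w.2.1) = d • (Ioc o (o + N)).val ∧ (∀ w ∈ M, Valid o N g w) ∧
    ∀ k, (M.map (fun w => w.2.2)).count (some k) = cnt k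

theorem LPok.congr {d o N : ℕ} {g g' cnt cnt' : ℕ → ℕ} (h : LPok d o N g cnt)
    (hg : ∀ s, o ≤ s → s < o + N → g s = g' s) (hc : ∀ k, cnt k = cnt' k) : LPok d o N g' cnt' := by
  obtain ⟨M, h1, h2, h3, h4⟩ := h
  refine ⟨M, h1, h2, fun w hw => ⟨(h3 w hw).1, fun k hk => ?_⟩, fun k => (h4 k).trans (hc k)⟩
  obtain ⟨a, b, e1, e2, e3, e4, e5, e6, e7⟩ := (h3 w hw).2 k hk
  exact ⟨a, b, e1, e2, e3, e4, e5, by rw [← hg a e1 (by omega), e6],
    by rw [← hg b (by omega) e2, e7]⟩

theorem LPok.stack {d d' o N : ℕ} {g cnt cnt' : ℕ → ℕ} (h : LPok d o N g cnt)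
    (h' : LPok d' o N g cnt') : LPok (d + d') o N g (fun k => cnt k + cnt' k) := by
  obtain ⟨M, h1, h2, h3, h4⟩ := h
  obtain ⟨M', h1', h2', h3', h4'⟩ := h'
  refine ⟨M + M', by rw [Multiset.map_add, h1, h1', add_nsmul],
    by rw [Multiset.map_add, h2, h2', add_nsmul], fun w hw => ?_, fun k => ?_⟩
  · rcases Multiset.mem_add.1 hw with hw | hw
    exacts [h3 w hw, h3' w hw]
  · rw [Multiset.map_add, Multiset.count_add, h4, h4']

theorem Ico_val_add (o N N' : ℕ) :
    (Ico o (o + (N + N'))).val = (Ico o (o + N)).val + (Ico (o + N) (o + N + N')).val := by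
  ext x
  simp only [Multiset.count_add, Multiset.count_eq_of_nodup (Finset.nodup _), Finset.mem_val,
    mem_Ico]
  split_ifs <;> omega

theorem Ioc_val_add (o N N' : ℕ) :
    (Ioc o (o + (N + N'))).val = (Ioc o (o + N)).val + (Ioc (o + N) (o + N + N')).val := by
  ext x
  simp only [Multiset.count_add, Multiset.count_eq_of_nodup (Finset.nodup _), Finset.mem_val,
    mem_Ioc]
  split_ifs <;> omega

theorem LPok.concat {d o N N' : ℕ} {g cnt cnt' : ℕ → ℕ} (h : LPok d o N g cnt)
    (h' : LPok d (o + N) N' g cnt') : LPok d o (N + N') g (fun k => cnt k + cnt' k) := by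
  obtain ⟨M, h1, h2, h3, h4⟩ := h
  obtain ⟨M', h1', h2', h3', h4'⟩ := h'
  refine ⟨M + M', by rw [Multiset.map_add, h1, h1', Ico_val_add, nsmul_add],
    by rw [Multiset.map_add, h2, h2', Ioc_val_add, nsmul_add], fun w hw => ?_, fun k => ?_⟩
  · rcases Multiset.mem_add.1 hw with hw | hw
    · refine ⟨(h3 w hw).1, fun k hk => ?_⟩
      obtain ⟨a, b, e1, e2, e3⟩ := (h3 w hw).2 k hk
      exact ⟨a, b, e1, by omega, e3⟩
    · refine ⟨(h3' w hw).1, fun k hk => ?_⟩
      obtain ⟨a, b, e1, e2, e3⟩ := (h3' w hw).2 k hk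
      exact ⟨a, b, by omega, by omega, e3⟩
  · rw [Multiset.map_add, Multiset.count_add, h4, h4']

theorem LPok.zero (o N : ℕ) (g : ℕ → ℕ) : LPok 0 o N g (fun _ => 0) :=
  ⟨0, by simp, by simp, by simp, by simp⟩

theorem LPok.triv1 (o N : ℕ) (g : ℕ → ℕ) : LPok 1 o N g (fun _ => 0) := by
  refine ⟨(Ico o (o + N)).val.map fun i => (i, i + 1, none), by simp, ?_, ?_, ?_⟩
  · rw [Multiset.map_map, one_nsmul]
    have : (Ico o (o + N)).map ⟨fun i => i + 1, add_left_injective 1⟩ = Ioc o (o + N) := by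
      ext x
      simp only [mem_map, mem_Ico, Function.Embedding.coeFn_mk, mem_Ioc]
      constructor
      · rintro ⟨y, hy, rfl⟩; omega
      · intro h; exact ⟨x - 1, by omega, by omega⟩
    rw [← this]; rfl
  · intro w hw
    obtain ⟨i, -, rfl⟩ := Multiset.mem_map.1 hw
    exact ⟨by simp, by simp⟩
  · intro k
    rw [Multiset.count_eq_zero]
    simp [Multiset.mem_replicate]

theorem LPok.triv (d o N : ℕ) (g : ℕ → ℕ) : LPok d o N g (fun _ => 0) := by
  induction d with
  | zero => exact LPok.zero o N g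
  | succ d ih => exact (ih.stack (LPok.triv1 o N g)).congr (fun _ _ _ => rfl) (fun _ => rfl)

theorem LPok.window {o N p a b : ℕ} {g : ℕ → ℕ} (h1 : o ≤ a) (h2 : a < b) (h3 : b < o + N)
    (ha : g a = p) (hb : g b = p) : LPok 1 o N g (fun k => if k = p then 1 else 0) := by
  refine ⟨(o, o + N, some p) ::ₘ (Ioo o (o + N)).val.map fun i => (i, i, none), ?_, ?_, ?_, ?_⟩
  · rw [Multiset.map_cons, Multiset.map_map, one_nsmul]
    ext x
    simp only [Function.comp_def, Multiset.map_id', Multiset.count_cons,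
      Multiset.count_eq_of_nodup (Finset.nodup _), Finset.mem_val, mem_Ico, mem_Ioo]
    split_ifs <;> omega
  · rw [Multiset.map_cons, Multiset.map_map, one_nsmul]
    ext x
    simp only [Function.comp_def, Multiset.map_id', Multiset.count_cons,
      Multiset.count_eq_of_nodup (Finset.nodup _), Finset.mem_val, mem_Ioc, mem_Ioo]
    split_ifs <;> omega
  · intro w hw
    rcases Multiset.mem_cons.1 hw with rfl | hw
    · refine ⟨by simp, fun k hk => ?_⟩
      obtain rfl : p = k := by simpa using hk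
      exact ⟨a, b, h1, h3, h1, h2, h3, ha, hb⟩
    · obtain ⟨i, -, rfl⟩ := Multiset.mem_map.1 hw
      exact ⟨by simp, by simp⟩
  · intro k
    rw [Multiset.map_cons, Multiset.count_cons, Multiset.count_eq_zero.2 (by simp [Multiset.mem_replicate])]
    simp

theorem LPok.top (p : ℕ) (g : ℕ → ℕ) (c : ℕ) : ∀ o N : ℕ,
    2 * c ≤ ((Ico o (o + N)).filter fun s => g s = p).card →
    LPok 1 o N g (fun k => if k = p then c else 0) := by
  induction c with
  | zero => intro o N _; exact (LPok.triv1 o N g).congr (fun _ _ _ => rfl) (by simp)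
  | succ c ih =>
    intro o N h
    set S := (Ico o (o + N)).filter fun s => g s = p with hS
    have hne : S.Nonempty := card_pos.1 (by omega)
    set a := S.min' hne with ha
    have haS : a ∈ S := min'_mem _ _
    have hne2 : (S.erase a).Nonempty := card_pos.1 (by rw [card_erase_of_mem haS]; omega)
    set b := (S.erase a).min' hne2 with hb
    have hbS : b ∈ S.erase a := min'_mem _ _
    have hab : a < b := lt_of_le_of_ne (min'_le _ _ (mem_of_mem_erase hbS)) (ne_of_mem_erase hbS).symm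
    have ha' := mem_filter.1 haS
    have hb' := mem_filter.1 (mem_of_mem_erase hbS)
    rw [mem_Ico] at ha' hb'
    obtain ⟨N₁, hN₁⟩ : ∃ N₁, b + 1 = o + N₁ := ⟨b + 1 - o, by omega⟩
    obtain ⟨N₂, rfl⟩ : ∃ N₂, N = N₁ + N₂ := ⟨N - N₁, by omega⟩
    have w1 := LPok.window (N := N₁) ha'.1.1 hab (by omega) ha'.2 hb'.2
    have w2 := ih (o + N₁) N₂ (by
      have hsub : (S.erase a).erase b ⊆ (Ico (o + N₁) (o + N₁ + N₂)).filter fun s => g s = p := by
        intro x hx
        have h1 := ne_of_mem_erase hx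
        have h2 := mem_of_mem_erase hx
        have h3 := min'_le _ _ h2
        have h4 := mem_filter.1 (mem_of_mem_erase h2)
        rw [mem_Ico] at h4
        rw [mem_filter, mem_Ico]
        refine ⟨⟨by omega, by omega⟩, h4.2⟩
      have := card_le_card hsub
      rw [card_erase_of_mem hbS, card_erase_of_mem haS] at this
      omega)
    refine (w1.concat w2).congr (fun _ _ _ => rfl) (fun k => ?_)
    split_ifs <;> omega

end Vale.Agent.P302
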